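import Mathlib

/-!
A bumpy cube: the unit cube with a dent on each low face and the same piece, shifted, on the
opposite face. It is an exact fundamental domain of the integer lattice.
-/

namespace Vale.Agent.P043.Euclid

open Set MeasureTheory

variable {d : ℕ}

/-- The coordinate unit vector. -/
def unit (i : Fin d) : Fin d → ℝ := Pi.single i 1

/-- An integer point as a real point. -/
def toReal (n : Fin d → ℤ) : Fin d → ℝ := fun k => (n k : ℝ)

/-- The sides of the dent on the axis `i`. -/
noncomputable def side (i k : Fin d) : Set ℝ :=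
  if k = i then Ico 0 (1 / 16) else Ioo (3 / 8) (5 / 8)

/-- The dent on the low face of the axis `i`. -/
noncomputable def dent (i : Fin d) : Set (Fin d → ℝ) := univ.pi (side i)

/-- The half-open unit cube. -/
def cube (d : ℕ) : Set (Fin d → ℝ) := univ.pi fun _ => Ico 0 1

/-- The bumpy cube. -/
noncomputable def key (d : ℕ) : Set (Fin d → ℝ) :=
  (cube d \ ⋃ i, dent i) ∪ ⋃ i, (fun x => x - unit i) ⁻¹' dent i

theorem toReal_add (m n : Fin d → ℤ) : toReal (m + n) = toReal m + toReal n := by
  funext k; simp [toReal]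

theorem toReal_sub (m n : Fin d → ℤ) : toReal (m - n) = toReal m - toReal n := by
  funext k; simp [toReal]

theorem toReal_zero : toReal (0 : Fin d → ℤ) = 0 := by
  funext k; simp [toReal]

theorem toReal_single (i : Fin d) : toReal (Pi.single i (1 : ℤ)) = unit i := by
  funext k
  by_cases h : k = i
  · subst h; simp [toReal, unit]
  · simp [toReal, unit, h]

theorem toReal_injective : Function.Injective (toReal (d := d)) := by
  intro m n h; funext k
  have := congrFun h k
  simpa [toReal] using this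

theorem mem_dent {i : Fin d} {x : Fin d → ℝ} :
    x ∈ dent i ↔ (0 ≤ x i ∧ x i < 1 / 16) ∧ ∀ k, k ≠ i → 3 / 8 < x k ∧ x k < 5 / 8 := by
  simp only [dent, Set.mem_pi, Set.mem_univ, forall_const]
  constructor
  · intro h
    refine ⟨by have := h i; simpa [side] using this, fun k hk => ?_⟩
    have := h k; simpa [side, hk] using this
  · rintro ⟨h1, h2⟩ k
    by_cases hk : k = i
    · subst hk; simpa [side] using h1
    · simpa [side, hk] using h2 k hk

theorem mem_cube {x : Fin d → ℝ} : x ∈ cube d ↔ ∀ k, 0 ≤ x k ∧ x k < 1 := by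
  simp [cube]

theorem dent_subset_cube (i : Fin d) : dent i ⊆ cube d := by
  intro x hx
  obtain ⟨h1, h2⟩ := mem_dent.1 hx
  refine mem_cube.2 fun k => ?_
  by_cases hk : k = i
  · subst hk; exact ⟨h1.1, by linarith [h1.2]⟩
  · exact ⟨by linarith [(h2 k hk).1], by linarith [(h2 k hk).2]⟩

theorem dent_unique {i j : Fin d} {x : Fin d → ℝ} (hi : x ∈ dent i) (hj : x ∈ dent j) : i = j := by
  by_contra h
  have := (mem_dent.1 hi).2 j (Ne.symm h)
  have := (mem_dent.1 hj).1
  linarith

theorem mem_key {x : Fin d → ℝ} :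
    x ∈ key d ↔ (x ∈ cube d ∧ ∀ i, x ∉ dent i) ∨ ∃ i, x - unit i ∈ dent i := by
  simp [key]

theorem key_bump {i : Fin d} {x : Fin d → ℝ} (h1 : 1 ≤ x i) (h2 : x i < 1 + 1 / 16)
    (h3 : ∀ k, k ≠ i → 3 / 8 < x k ∧ x k < 5 / 8) : x ∈ key d := by
  refine mem_key.2 (Or.inr ⟨i, mem_dent.2 ⟨?_, fun k hk => ?_⟩⟩)
  · simp [unit]; constructor <;> linarith
  · simp [unit, hk]; exact h3 k hk

/-- The part of the open cube above a dent is not dented. -/
theorem key_high {i : Fin d} {x : Fin d → ℝ} (h : ∀ k, 0 < x k ∧ x k < 1) (hi : 5 / 8 < x i) :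
    x ∈ key d := by
  refine mem_key.2 (Or.inl ⟨mem_cube.2 fun k => ⟨(h k).1.le, (h k).2⟩, fun j hj => ?_⟩)
  obtain ⟨h1, h2⟩ := mem_dent.1 hj
  by_cases hij : i = j
  · subst hij; linarith
  · linarith [(h2 i hij).2]

theorem key_core {x : Fin d → ℝ} (h : ∀ k, 1 / 16 < x k ∧ x k < 1) : x ∈ key d := by
  refine mem_key.2 (Or.inl ⟨mem_cube.2 fun k => ⟨by linarith [(h k).1], (h k).2⟩, fun j hj => ?_⟩)
  linarith [(h j).1, (mem_dent.1 hj).1.2]

theorem key_bounded (d : ℕ) : Bornology.IsBounded (key d) := by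
  refine Metric.isBounded_closedBall (x := (0 : Fin d → ℝ)) (r := 2) |>.subset fun x hx => ?_
  rw [mem_closedBall_zero_iff, pi_norm_le_iff_of_nonneg (by norm_num)]
  intro k
  rw [Real.norm_eq_abs, abs_le]
  rcases mem_key.1 hx with ⟨h, -⟩ | ⟨i, h⟩
  · have := mem_cube.1 h k; constructor <;> linarith
  · have := mem_cube.1 (dent_subset_cube i h) k
    by_cases hk : k = i
    · subst hk; simp [unit] at this; constructor <;> linarith
    · simp [unit, hk] at this; constructor <;> linarith

theorem measurableSet_key (d : ℕ) : MeasurableSet (key d) := by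
  have hd : ∀ i : Fin d, MeasurableSet (dent i) := fun i =>
    MeasurableSet.univ_pi fun k => by
      unfold side; split_ifs
      · exact measurableSet_Ico
      · exact measurableSet_Ioo
  refine ((MeasurableSet.univ_pi fun _ => measurableSet_Ico).diff
    (MeasurableSet.iUnion hd)).union (MeasurableSet.iUnion fun i => ?_)
  exact (measurable_id.sub_const (unit i)) (hd i)

theorem eq_floor {y : Fin d → ℝ} {n : Fin d → ℤ} (h : y - toReal n ∈ cube d) :
    n = fun k => ⌊y k⌋ := by
  funext k
  have := mem_cube.1 h k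
  simp [toReal] at this
  exact (Int.floor_eq_iff.2 ⟨by linarith, by linarith⟩).symm

theorem key_existsUnique (y : Fin d → ℝ) : ∃! n : Fin d → ℤ, y - toReal n ∈ key d := by
  set m : Fin d → ℤ := fun k => ⌊y k⌋ with hm
  have hmc : y - toReal m ∈ cube d := mem_cube.2 fun k => by
    show 0 ≤ y k - (⌊y k⌋ : ℝ) ∧ y k - (⌊y k⌋ : ℝ) < 1
    constructor <;> linarith [Int.floor_le (y k), Int.lt_floor_add_one (y k)]
  have hchar : ∀ n, y - toReal n ∈ key d →
      (n = m ∧ ∀ i, y - toReal m ∉ dent i) ∨
        ∃ i, n = m - Pi.single i 1 ∧ y - toReal m ∈ dent i := by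
    intro n hn
    rcases mem_key.1 hn with ⟨h, h'⟩ | ⟨i, h⟩
    · have hnm : n = m := eq_floor h
      exact Or.inl ⟨hnm, hnm ▸ h'⟩
    · have he : y - toReal n - unit i = y - toReal (n + Pi.single i 1) := by
        rw [toReal_add, toReal_single]; abel
      rw [he] at h
      have hnm : n + Pi.single i 1 = m := eq_floor (dent_subset_cube i h)
      rw [hnm] at h
      exact Or.inr ⟨i, eq_sub_of_add_eq hnm, h⟩
  by_cases hd : ∃ i, y - toReal m ∈ dent i
  · obtain ⟨i, hi⟩ := hd
    refine ⟨m - Pi.single i 1, mem_key.2 (Or.inr ⟨i, ?_⟩), fun n hn => ?_⟩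
    · rw [toReal_sub, toReal_single]
      convert hi using 1
      abel
    · rcases hchar n hn with ⟨-, h⟩ | ⟨j, hj, hj'⟩
      · exact absurd hi (h i)
      · rw [hj, dent_unique hj' hi]
  · refine ⟨m, mem_key.2 (Or.inl ⟨hmc, fun i hi => hd ⟨i, hi⟩⟩), fun n hn => ?_⟩
    rcases hchar n hn with ⟨h, -⟩ | ⟨j, -, hj'⟩
    · exact h
    · exact absurd ⟨j, hj'⟩ hd

theorem key_unique {x : Fin d → ℝ} {m n : Fin d → ℤ} (hm : x - toReal m ∈ key d)
    (hn : x - toReal n ∈ key d) : m = n :=
  (key_existsUnique x).unique hm hn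

/-- A product of nonempty open intervals is not null. -/
theorem box_pos {l u : Fin d → ℝ} (h : ∀ k, l k < u k) :
    0 < volume (univ.pi fun k => Ioo (l k) (u k)) :=
  (isOpen_set_pi finite_univ fun _ _ => isOpen_Ioo).measure_pos volume
    (univ_pi_nonempty_iff.2 fun k => nonempty_Ioo.2 (h k))

theorem key_pos (d : ℕ) : 0 < volume (key d) := by
  refine lt_of_lt_of_le (box_pos (l := fun _ : Fin d => (1 : ℝ) / 4) (u := fun _ => 3 / 4)
    (fun _ => by norm_num)) (measure_mono fun x hx => key_core fun k => ?_)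
  have := hx k (mem_univ k)
  simp at this
  constructor <;> linarith

end Vale.Agent.P043.Euclid
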