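import Vale.Agent.P043.Euclid.Cube

/-!
The bumpy cube is rigid: its translates cover space up to a null set and overlap in null sets
only when the translation set is a coset of the integer lattice.
-/

namespace Vale.Agent.P043.Euclid

open Set MeasureTheory

variable {d : ℕ}

/-- The translates of `S` by `A` cover space up to a null set and overlap in null sets. -/
def KTiles (A S : Set (Fin d → ℝ)) : Prop :=
  (∀ᵐ x, ∃ a ∈ A, x - a ∈ S) ∧
    ∀ a ∈ A, ∀ b ∈ A, a ≠ b → volume {x : Fin d → ℝ | x - a ∈ S ∧ x - b ∈ S} = 0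

variable {A : Set (Fin d → ℝ)}

theorem no_overlap (hA : KTiles A (key d)) {a b : Fin d → ℝ} (ha : a ∈ A) (hb : b ∈ A)
    {l u : Fin d → ℝ} (h : ∀ k, l k < u k)
    (hsub : ∀ z : Fin d → ℝ, (∀ k, l k < z k ∧ z k < u k) → z - a ∈ key d ∧ z - b ∈ key d) :
    a = b := by
  by_contra hne
  refine (box_pos h).ne' (measure_mono_null (fun z hz => ?_) (hA.2 a ha b hb hne))
  exact hsub z fun k => hz k (mem_univ k)

theorem covered (hA : KTiles A (key d)) {l u : Fin d → ℝ} (h : ∀ k, l k < u k) :
    ∃ x : Fin d → ℝ, (∀ k, l k < x k ∧ x k < u k) ∧ ∃ a ∈ A, x - a ∈ key d := by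
  by_contra hcon
  push Not at hcon
  refine (box_pos h).ne' (measure_mono_null (fun x hx => ?_) (ae_iff.1 hA.1))
  rintro ⟨a, ha, hxa⟩
  exact hcon x (fun k => hx k (mem_univ k)) a ha hxa

/-- Two translation vectors are not close. -/
theorem sep (hA : KTiles A (key d)) {a b : Fin d → ℝ} (ha : a ∈ A) (hb : b ∈ A)
    (h : ∀ k, |b k - a k| < 7 / 8) : a = b := by
  refine no_overlap hA ha hb (l := fun k => max (a k) (b k) + 1 / 16)
    (u := fun k => min (a k) (b k) + 1) (fun k => ?_) fun z hz => ?_
  · have := abs_lt.1 (h k)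
    simp only [max_def, min_def]
    split_ifs <;> linarith
  · constructor <;> refine key_core fun k => ?_ <;>
      · obtain ⟨h1, h2⟩ := hz k
        simp only [Pi.sub_apply]
        constructor <;>
          linarith [le_max_left (a k) (b k), le_max_right (a k) (b k), min_le_left (a k) (b k),
            min_le_right (a k) (b k)]

/-- A translate covering a point just above a translate lies about one unit higher. -/
theorem classify (hA : KTiles A (key d)) {a b x : Fin d → ℝ} {i : Fin d} (ha : a ∈ A) (hb : b ∈ A)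
    (hi : 1 < x i - a i ∧ x i - a i < 1 + 1 / 8)
    (hl : ∀ k, k ≠ i → 5 / 16 < x k - a k ∧ x k - a k < 11 / 16)
    (hx : x - b ∈ key d) (hne : b ≠ a) :
    (∀ k, 0 ≤ x k - b k ∧ x k - b k < 1) ∧ 7 / 8 ≤ b i - a i := by
  rcases mem_key.1 hx with ⟨hc, -⟩ | ⟨j, hj⟩
  · have hc' : ∀ k, 0 ≤ x k - b k ∧ x k - b k < 1 := mem_cube.1 hc
    refine ⟨hc', ?_⟩
    by_contra hlt
    refine hne (sep hA ha hb fun k => abs_lt.2 ?_).symm
    by_cases hk : k = i
    · subst hk; constructor <;> linarith [hc' k]
    · constructor <;> linarith [hc' k, hl k hk]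
  · obtain ⟨hjj, hjk⟩ := mem_dent.1 hj
    simp [unit] at hjj
    refine absurd (sep hA ha hb fun k => abs_lt.2 ?_).symm hne
    by_cases hkj : k = j
    · subst hkj
      by_cases hki : k = i
      · subst hki; constructor <;> linarith
      · constructor <;> linarith [hl k hki]
    · have := hjk k hkj
      simp [unit, hkj] at this
      by_cases hki : k = i
      · subst hki; constructor <;> linarith
      · constructor <;> linarith [hl k hki]

/-- A point above a bump lies outside the bumpy cube. -/
theorem not_key_top {x : Fin d → ℝ} {i : Fin d} (h1 : 1 < x i)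
    (h2 : 1 + 1 / 16 ≤ x i ∨ ∃ k, k ≠ i ∧ (x k ≤ 3 / 8 ∨ 5 / 8 ≤ x k)) : x ∉ key d := by
  intro hx
  rcases mem_key.1 hx with ⟨hc, -⟩ | ⟨j, hj⟩
  · linarith [mem_cube.1 hc i]
  · obtain ⟨hjj, hjk⟩ := mem_dent.1 hj
    simp [unit] at hjj
    by_cases hji : j = i
    · subst hji
      rcases h2 with h2 | ⟨k, hk, hk'⟩
      · linarith
      · have := hjk k hk
        simp [unit, hk] at this
        rcases hk' with h | h <;> linarith
    · have := hjk i (Ne.symm hji)
      simp [unit, Ne.symm hji] at this
      linarith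

/-- A translate lying on top of `a`. -/
theorem exists_top (hA : KTiles A (key d)) {a : Fin d → ℝ} (ha : a ∈ A) (i : Fin d) :
    ∃ b ∈ A, b ≠ a ∧ (7 / 8 ≤ b i - a i ∧ b i - a i < 1 + 1 / 8) ∧
      ∀ k, k ≠ i → -(5 / 8) < b k - a k ∧ b k - a k < 5 / 8 := by
  obtain ⟨x, hx, b, hb, hxb⟩ := covered hA
    (l := fun k => a k + if k = i then 1 + 1 / 16 else 3 / 8)
    (u := fun k => a k + if k = i then 1 + 1 / 8 else 5 / 8)
    (fun k => by split_ifs <;> linarith)
  have hxi := hx i
  simp only [if_pos] at hxi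
  have hxk : ∀ k, k ≠ i → a k + 3 / 8 < x k ∧ x k < a k + 5 / 8 := fun k hk => by
    simpa [hk] using hx k
  have hne : b ≠ a := by
    rintro rfl
    exact not_key_top (i := i) (by simp; linarith) (Or.inl (by simp; linarith)) hxb
  obtain ⟨hc, hbi⟩ := classify hA ha hb (i := i) ⟨by linarith, by linarith⟩
    (fun k hk => ⟨by linarith [hxk k hk], by linarith [hxk k hk]⟩) hxb hne
  have hv : ∀ k, k ≠ i → -(5 / 8) < b k - a k ∧ b k - a k < 5 / 8 := fun k hk =>
    ⟨by linarith [hc k, hxk k hk], by linarith [hc k, hxk k hk]⟩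
  exact ⟨b, hb, hne, ⟨hbi, by linarith [hc i]⟩, hv⟩

/-- The translate on top of `a` is at most one unit higher. -/
theorem height_le (hA : KTiles A (key d)) {a b : Fin d → ℝ} {i k₀ : Fin d} (hk₀ : k₀ ≠ i)
    (ha : a ∈ A) (hb : b ∈ A) (hbi : 7 / 8 ≤ b i - a i) (hbi' : b i - a i < 1 + 1 / 8)
    (hv : ∀ k, k ≠ i → -(5 / 8) < b k - a k ∧ b k - a k < 5 / 8) : b i - a i ≤ 1 := by
  refine le_of_forall_pos_le_add fun ε hε => ?_
  obtain ⟨e, he, he', hee⟩ : ∃ e : ℝ, 0 < e ∧ e ≤ 1 / 16 ∧ e ≤ ε :=
    ⟨min ε (1 / 16), lt_min hε (by norm_num), min_le_right _ _, min_le_left _ _⟩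
  set L : Fin d → ℝ := fun k => if k = i then a k + 1 else if k = k₀ then
    (if b k - a k < 3 / 8 then max (a k + 5 / 16) (b k) else a k + 5 / 8)
    else max (a k + 3 / 8) (b k) with hL
  set U : Fin d → ℝ := fun k => if k = i then a k + 1 + e else if k = k₀ then
    (if b k - a k < 3 / 8 then a k + 3 / 8 else a k + 11 / 16)
    else min (a k + 5 / 8) (b k + 1) with hU
  obtain ⟨y, hy, b', hb', hyb⟩ := covered hA (l := L) (u := U) (fun k => by
    simp only [hL, hU]
    by_cases hk : k = i
    · simp [hk]; linarith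
    · have := hv k hk
      simp only [hk, if_false, max_def, min_def]
      split_ifs <;> linarith)
  have hyi := hy i
  simp only [hL, hU, if_pos] at hyi
  have hyk : ∀ k, k ≠ i → a k + 5 / 16 < y k ∧ y k < a k + 11 / 16 ∧ b k < y k ∧ y k < b k + 1 := by
    intro k hk
    have h := hy k
    have := hv k hk
    simp only [hL, hU, hk, if_false] at h
    simp only [max_def, min_def] at h
    split_ifs at h <;> refine ⟨?_, ?_, ?_, ?_⟩ <;> linarith
  have hne' : b' ≠ a := by
    rintro rfl
    refine not_key_top (i := i) (by simp; linarith) (Or.inr ⟨k₀, hk₀, ?_⟩) hyb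
    have h := hy k₀
    simp only [hL, hU, hk₀, if_false, if_pos] at h
    simp only [Pi.sub_apply]
    split_ifs at h
    · exact Or.inl (by linarith)
    · exact Or.inr (by linarith)
  obtain ⟨hc', hbi2⟩ := classify hA ha hb' (i := i) ⟨by linarith, by linarith⟩
    (fun k hk => ⟨by linarith [hyk k hk], by linarith [hyk k hk]⟩) hyb hne'
  have hbi3 : b' i - a i < 1 + e := by linarith [hc' i]
  have hbb : b = b' := by
    refine no_overlap hA hb hb'
      (l := fun k => max (b k) (b' k) + if k = i then 5 / 8 else 0)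
      (u := fun k => min (b k) (b' k) + 1) (fun k => ?_) fun z hz => ?_
    · by_cases hk : k = i
      · subst hk; simp only [if_pos, max_def, min_def]; split_ifs <;> linarith
      · have := hyk k hk
        simp only [hk, if_false, max_def, min_def]
        split_ifs <;> linarith [hc' k]
    · have hz' : ∀ k, max (b k) (b' k) < z k ∧ z k < min (b k) (b' k) + 1 := fun k => by
        obtain ⟨h1, h2⟩ := hz k
        refine ⟨?_, h2⟩
        split_ifs at h1 <;> linarith
      have hzi := (hz i).1
      simp only [if_pos] at hzi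
      constructor <;> refine key_high (i := i) (fun k => ?_) ?_ <;> simp only [Pi.sub_apply]
      · constructor <;> linarith [hz' k, le_max_left (b k) (b' k), min_le_left (b k) (b' k)]
      · linarith [le_max_left (b i) (b' i)]
      · constructor <;> linarith [hz' k, le_max_right (b k) (b' k), min_le_right (b k) (b' k)]
      · linarith [le_max_right (b i) (b' i)]
  subst hbb
  linarith

/-- The translate on top of `a` is not shifted sideways. -/
theorem lateral_eq (hA : KTiles A (key d)) {a b : Fin d → ℝ} {i : Fin d} (ha : a ∈ A) (hb : b ∈ A)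
    (hne : b ≠ a) (hbi : 7 / 8 ≤ b i - a i) (hle : b i - a i ≤ 1)
    (hv : ∀ k, k ≠ i → -(5 / 8) < b k - a k ∧ b k - a k < 5 / 8) :
    ∀ k, k ≠ i → b k = a k := by
  intro k₁ hk₁
  by_contra hvk
  have hv1 := hv k₁ hk₁
  refine hne (no_overlap hA ha hb
    (l := fun k => if k = i then a k + 1 else if k = k₁ then
      (if a k < b k then max (a k + 3 / 8) (b k) else max (a k + 3 / 8) (b k + 5 / 8))
      else max (a k + 3 / 8) (b k))
    (u := fun k => if k = i then a k + 1 + 1 / 16 else if k = k₁ then
      (if a k < b k then min (a k + 5 / 8) (b k + 3 / 8) else min (a k + 5 / 8) (b k + 1))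
      else min (a k + 5 / 8) (b k + 1)) (fun k => ?_) fun z hz => ?_).symm
  · by_cases hk : k = i
    · simp [hk]
    · have := hv k hk
      by_cases hk' : k = k₁
      · subst hk'
        simp only [hk, if_false, if_pos, max_def, min_def]
        split_ifs with h <;>
          first
            | linarith
            | linarith [lt_of_le_of_ne (not_lt.1 h) hvk]
      · simp only [hk, hk', if_false, max_def, min_def]
        split_ifs <;> linarith
  · have hzi := hz i
    simp only [if_pos] at hzi
    have hzk : ∀ k, k ≠ i → a k + 3 / 8 < z k ∧ z k < a k + 5 / 8 ∧ b k < z k ∧ z k < b k + 1 := by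
      intro k hk
      have h := hz k
      have := hv k hk
      simp only [hk, if_false, max_def, min_def] at h
      split_ifs at h <;> refine ⟨?_, ?_, ?_, ?_⟩ <;> linarith
    refine ⟨key_bump (i := i) (by simp; linarith) (by simp; linarith)
      (fun k hk => by simp; constructor <;> linarith [hzk k hk]), mem_key.2 (Or.inl ⟨?_, ?_⟩)⟩
    · refine mem_cube.2 fun k => ?_
      simp only [Pi.sub_apply]
      by_cases hk : k = i
      · subst hk; constructor <;> linarith
      · constructor <;> linarith [hzk k hk]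
    · intro j hj
      obtain ⟨-, hjk⟩ := mem_dent.1 hj
      by_cases hji : j = i
      · subst hji
        have h := hjk k₁ hk₁
        have h' := hz k₁
        simp only [hk₁, if_false, if_pos] at h'
        simp only [Pi.sub_apply] at h
        split_ifs at h'
        · linarith [min_le_right (a k₁ + 5 / 8) (b k₁ + 3 / 8)]
        · linarith [le_max_right (a k₁ + 3 / 8) (b k₁ + 5 / 8)]
      · have h := hjk i (Ne.symm hji)
        simp only [Pi.sub_apply] at h
        linarith

/-- The translate on top of `a` is exactly one unit higher. -/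
theorem height_eq (hA : KTiles A (key d)) {a b : Fin d → ℝ} {i : Fin d} (ha : a ∈ A) (hb : b ∈ A)
    (hne : b ≠ a) (hbi : 7 / 8 ≤ b i - a i) (hle : b i - a i ≤ 1)
    (hlat : ∀ k, k ≠ i → b k = a k) : b i - a i = 1 := by
  by_contra hne1
  have hlt : b i - a i < 1 := lt_of_le_of_ne hle hne1
  refine hne (no_overlap hA ha hb
    (l := fun k => if k = i then max (a k + 1) (b k + 1 / 16) else a k + 3 / 8)
    (u := fun k => if k = i then a k + 1 + 1 / 16 else a k + 5 / 8) (fun k => ?_)
    fun z hz => ?_).symm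
  · by_cases hk : k = i
    · subst hk; simp only [if_pos]; exact max_lt (by linarith) (by linarith)
    · simp only [hk, if_false]; linarith
  · have hzi := hz i
    simp only [if_pos] at hzi
    have hzk : ∀ k, k ≠ i → a k + 3 / 8 < z k ∧ z k < a k + 5 / 8 := fun k hk => by
      simpa [hk] using hz k
    have := le_max_left (a i + 1) (b i + 1 / 16)
    have := le_max_right (a i + 1) (b i + 1 / 16)
    refine ⟨key_bump (i := i) (by simp; linarith) (by simp; linarith)
      (fun k hk => by simp; constructor <;> linarith [hzk k hk]), key_core fun k => ?_⟩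
    simp only [Pi.sub_apply]
    by_cases hk : k = i
    · subst hk; constructor <;> linarith
    · rw [hlat k hk]; constructor <;> linarith [hzk k hk]

/-- The translate on top of `a` is `a + unit i`. -/
theorem step (hd : 2 ≤ d) (hA : KTiles A (key d)) {a : Fin d → ℝ} (ha : a ∈ A) (i : Fin d) :
    a + unit i ∈ A := by
  have : Nontrivial (Fin d) := Fin.nontrivial_iff_two_le.2 hd
  obtain ⟨k₀, hk₀⟩ := exists_ne i
  obtain ⟨b, hb, hne, ⟨hbi, hbi'⟩, hv⟩ := exists_top hA ha i
  have hle := height_le hA hk₀ ha hb hbi hbi' hv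
  have hlat := lateral_eq hA ha hb hne hbi hle hv
  have hone := height_eq hA ha hb hne hbi hle hlat
  convert hb
  funext k
  by_cases hk : k = i
  · subst hk; simp [unit]; linarith
  · simp [unit, hk, hlat k hk]

/-- The translations by which a translation set maps into itself. -/
def forward (A : Set (Fin d → ℝ)) : AddSubmonoid (Fin d → ℤ) where
  carrier := {n | ∀ a ∈ A, a + toReal n ∈ A}
  zero_mem' := fun a ha => by simpa [toReal_zero] using ha
  add_mem' {m n} hm hn a ha := by
    rw [toReal_add, ← add_assoc]; exact hn _ (hm a ha)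

theorem forward_nonneg (hd : 2 ≤ d) (hA : KTiles A (key d)) {n : Fin d → ℤ} (hn : ∀ k, 0 ≤ n k) :
    n ∈ forward A := by
  have h1 : ∀ i, Pi.single i (1 : ℤ) ∈ forward A := fun i a ha => by
    rw [toReal_single]; exact step hd hA ha i
  rw [← Finset.univ_sum_single n]
  refine AddSubmonoid.sum_mem _ fun i _ => ?_
  have : Pi.single i (n i) = (n i).toNat • (Pi.single i (1 : ℤ) : Fin d → ℤ) := by
    rw [← Pi.single_smul]; simp [Int.toNat_of_nonneg (hn i)]
  rw [this]
  exact AddSubmonoid.nsmul_mem _ (h1 i) _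

/-- Every tiling by the bumpy cube is a coset of the lattice. -/
theorem rigid (hd : 2 ≤ d) (hA : KTiles A (key d)) :
    ∃ a₀ : Fin d → ℝ, A = {b | ∃ n : Fin d → ℤ, b = a₀ + toReal n} := by
  obtain ⟨-, -, a₀, ha₀, -⟩ := covered hA (l := fun _ => 0) (u := fun _ => 1) fun _ => one_pos
  have hsub : ∀ b ∈ A, ∃ n : Fin d → ℤ, b = a₀ + toReal n := by
    intro b hb
    let r : Fin d → ℤ := fun k => round (b k - a₀ k)
    have h := sep hA (forward_nonneg hd hA (n := fun k => max (r k) 0) (fun k => le_max_right _ _)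
      a₀ ha₀) (forward_nonneg hd hA (n := fun k => max (-r k) 0) (fun k => le_max_right _ _) b hb)
      fun k => ?_
    · refine ⟨r, funext fun k => ?_⟩
      have h' := congrFun h k
      simp only [Pi.add_apply, toReal] at h' ⊢
      have e : (max (r k) 0 : ℤ) - max (-r k) 0 = r k := by omega
      have e' : ((max (r k) 0 : ℤ) : ℝ) - ((max (-r k) 0 : ℤ) : ℝ) = r k := by exact_mod_cast e
      linarith
    · have e : (max (r k) 0 : ℤ) - max (-r k) 0 = r k := by omega
      have e' : ((max (r k) 0 : ℤ) : ℝ) - ((max (-r k) 0 : ℤ) : ℝ) = r k := by exact_mod_cast e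
      have := abs_sub_round (b k - a₀ k)
      simp only [Pi.add_apply, toReal]
      calc |b k + ((max (-r k) 0 : ℤ) : ℝ) - (a₀ k + ((max (r k) 0 : ℤ) : ℝ))|
          = |b k - a₀ k - (r k : ℝ)| := by congr 1; linarith
        _ < 7 / 8 := lt_of_le_of_lt this (by norm_num)
  refine ⟨a₀, Set.ext fun b => ⟨hsub b, ?_⟩⟩
  rintro ⟨n, rfl⟩
  obtain ⟨x, hx, c, hc, hxc⟩ := covered hA (l := fun k => a₀ k + n k + 1 / 4)
    (u := fun k => a₀ k + n k + 3 / 4) (fun k => by linarith)
  obtain ⟨m, rfl⟩ := hsub c hc
  have hn : x - a₀ - toReal n ∈ key d := key_core fun k => by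
    have := hx k
    simp only [Pi.sub_apply, toReal]
    constructor <;> linarith
  rw [← sub_sub] at hxc
  rwa [key_unique hxc hn] at hc

end Vale.Agent.P043.Euclid
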