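import Vale.Agent.P043.Rigid
import Vale.Agent.P043.Euclid.Rigid

/-!
From the lattice to Euclidean space: thickening a tile by the bumpy cube keeps it a tile and
keeps it free of periodic tilings.
-/

namespace Vale.Agent.P043.Euclid

open Set MeasureTheory

variable {d : ℕ}

/-- The finite set thickened by the bumpy cube. -/
noncomputable def thicken (F : Finset (Pt d)) : Set (Fin d → ℝ) :=
  ⋃ f ∈ F, (fun x => x - toReal f) ⁻¹' key d

theorem mem_thicken {F : Finset (Pt d)} {x : Fin d → ℝ} :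
    x ∈ thicken F ↔ ∃ f ∈ F, x - toReal f ∈ key d := by
  simp [thicken]

theorem measurableSet_thicken (F : Finset (Pt d)) : MeasurableSet (thicken F) :=
  Finset.measurableSet_biUnion _ fun f _ =>
    (measurable_id.sub_const (toReal f)) (measurableSet_key d)

theorem thicken_bounded (F : Finset (Pt d)) : Bornology.IsBounded (thicken F) := by
  obtain ⟨r, hr⟩ := (Metric.isBounded_iff_subset_closedBall (0 : Fin d → ℝ)).1 (key_bounded d)
  refine (Bornology.isBounded_biUnion_finset F).2 fun f _ => ?_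
  refine (Metric.isBounded_closedBall (x := toReal f) (r := r)).subset fun x hx => ?_
  rw [Metric.mem_closedBall, dist_eq_norm]
  exact mem_closedBall_zero_iff.1 (hr hx)

theorem volume_translate_key (c : Fin d → ℝ) :
    volume ((fun x => x - c) ⁻¹' key d) = volume (key d) := by
  simp only [sub_eq_add_neg]
  exact measure_preimage_add_right volume (-c) (key d)

theorem thicken_pos {F : Finset (Pt d)} (hF : F.Nonempty) : 0 < volume (thicken F) := by
  obtain ⟨f, hf⟩ := hF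
  calc (0 : ENNReal) < volume (key d) := key_pos d
    _ = volume ((fun x => x - toReal f) ⁻¹' key d) := (volume_translate_key _).symm
    _ ≤ _ := measure_mono fun x hx => mem_thicken.2 ⟨f, hf, hx⟩

theorem nonempty_of_tiling {A : Set (Pt d)} {F : Finset (Pt d)} (h : IsTiling A F) :
    F.Nonempty := by
  obtain ⟨p, ⟨-, hp, -⟩, -⟩ := h 0
  exact ⟨_, hp⟩

/-- A lattice tiling by `F` gives a tiling of space by the thickened set. -/
theorem thicken_tiles {A : Set (Pt d)} {F : Finset (Pt d)} (h : IsTiling A F) :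
    KTiles (toReal '' A) (thicken F) := by
  refine ⟨Filter.Eventually.of_forall fun x => ?_, ?_⟩
  · obtain ⟨n, hn, -⟩ := key_existsUnique x
    obtain ⟨⟨a, f⟩, ⟨ha, hf, rfl⟩, -⟩ := h n
    refine ⟨toReal a, mem_image_of_mem _ ha, mem_thicken.2 ⟨f, hf, ?_⟩⟩
    rwa [sub_sub, ← toReal_add]
  · rintro _ ⟨a, ha, rfl⟩ _ ⟨b, hb, rfl⟩ hne
    convert measure_empty (μ := (volume : Measure (Fin d → ℝ)))
    refine eq_empty_of_forall_notMem fun x hx => ?_
    obtain ⟨f, hf, h1⟩ := mem_thicken.1 hx.1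
    obtain ⟨g, hg, h2⟩ := mem_thicken.1 hx.2
    rw [sub_sub, ← toReal_add] at h1 h2
    have he := key_unique h1 h2
    have := (h (a + f)).unique (y₁ := (a, f)) (y₂ := (b, g)) ⟨ha, hf, rfl⟩ ⟨hb, hg, he.symm⟩
    exact hne (congrArg toReal (congrArg Prod.fst this))

/-- Every tiling by the thickened set comes from a lattice tiling. -/
theorem tiling_of_thicken (hd : 2 ≤ d) {F : Finset (Pt d)} (hF : F.Nonempty)
    {A : Set (Fin d → ℝ)} (hA : KTiles A (thicken F)) :
    ∃ (a₀ : Fin d → ℝ) (A' : Set (Pt d)),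
      IsTiling A' F ∧ A = (fun m => a₀ + toReal m) '' A' := by
  set B : Set (Fin d → ℝ) := {b | ∃ a ∈ A, ∃ f ∈ F, b = a + toReal f} with hB
  have hBT : KTiles B (key d) := by
    refine ⟨?_, ?_⟩
    · filter_upwards [hA.1] with x hx
      obtain ⟨a, ha, hxa⟩ := hx
      obtain ⟨f, hf, h⟩ := mem_thicken.1 hxa
      exact ⟨a + toReal f, ⟨a, ha, f, hf, rfl⟩, by rwa [← sub_sub]⟩
    · rintro _ ⟨a, ha, f, hf, rfl⟩ _ ⟨b, hb, g, hg, rfl⟩ hne
      by_cases hab : a = b
      · subst hab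
        convert measure_empty (μ := (volume : Measure (Fin d → ℝ)))
        refine eq_empty_of_forall_notMem fun x hx => hne ?_
        obtain ⟨h1, h2⟩ := hx
        rw [← sub_sub] at h1 h2
        rw [key_unique h1 h2]
      · refine measure_mono_null (fun x hx => ?_) (hA.2 a ha b hb hab)
        exact ⟨mem_thicken.2 ⟨f, hf, by rw [sub_sub]; exact hx.1⟩,
          mem_thicken.2 ⟨g, hg, by rw [sub_sub]; exact hx.2⟩⟩
  obtain ⟨a₀, ha₀⟩ := rigid hd hBT
  have hsub : ∀ a ∈ A, ∃ m : Pt d, a = a₀ + toReal m := by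
    intro a ha
    obtain ⟨f, hf⟩ := hF
    obtain ⟨n, hn⟩ : a + toReal f ∈ {b | ∃ n : Pt d, b = a₀ + toReal n} := by
      rw [← ha₀]; exact ⟨a, ha, f, hf, rfl⟩
    exact ⟨n - f, by rw [toReal_sub, ← add_sub_assoc, ← hn, add_sub_cancel_right]⟩
  refine ⟨a₀, {m | a₀ + toReal m ∈ A}, ?_, ?_⟩
  · intro g
    obtain ⟨a, ha, f, hf, he⟩ : a₀ + toReal g ∈ B := by rw [ha₀]; exact ⟨g, rfl⟩
    refine ⟨(g - f, f), ⟨?_, hf, sub_add_cancel g f⟩, ?_⟩
    · show a₀ + toReal (g - f) ∈ A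
      rw [toReal_sub, ← add_sub_assoc, he, add_sub_cancel_right]
      exact ha
    · rintro ⟨m, f'⟩ ⟨hm, hf', hmf⟩
      obtain rfl : m = g - f' := eq_sub_of_add_eq hmf
      suffices f' = f by subst this; rfl
      by_contra hne
      have hne' : a₀ + toReal (g - f') ≠ a := by
        intro h
        rw [← h, add_assoc, ← toReal_add] at he
        have := congrFun (toReal_injective (add_left_cancel he))
        exact hne (funext fun k => by have := this k; simp at this; linarith)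
      have h0 := hA.2 _ hm _ ha hne'
      have hpos : 0 < volume ((fun x => x - (a₀ + toReal g)) ⁻¹' key d) := by
        rw [volume_translate_key]; exact key_pos d
      refine hpos.ne' (measure_mono_null (fun x hx => ?_) h0)
      refine ⟨mem_thicken.2 ⟨f', hf', ?_⟩, mem_thicken.2 ⟨f, hf, ?_⟩⟩
      · rw [sub_sub, add_assoc, ← toReal_add, sub_add_cancel]; exact hx
      · rw [sub_sub, ← he]; exact hx
  · ext b
    refine ⟨fun hb => ?_, ?_⟩
    · obtain ⟨m, rfl⟩ := hsub b hb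
      exact ⟨m, hb, rfl⟩
    · rintro ⟨m, hm, rfl⟩; exact hm

/-- The periods of a set of lattice points. -/
def setPeriods (A : Set (Pt d)) : AddSubgroup (Pt d) where
  carrier := {w | ∀ m, m + w ∈ A ↔ m ∈ A}
  zero_mem' := by simp
  add_mem' {v w} hv hw m := by rw [← add_assoc, hw, hv]
  neg_mem' {v} hv m := by rw [← hv (m + -v), neg_add_cancel_right]

/-- A full set of independent periods contains the multiples of a number. -/
theorem exists_nsmul_period {A : Set (Pt d)} {w : Fin d → Pt d} (hw : LinearIndependent ℤ w)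
    (hmem : ∀ j m, m + w j ∈ A ↔ m ∈ A) :
    ∃ N : ℕ, 0 < N ∧ ∀ v a : Pt d, a + N • v ∈ A ↔ a ∈ A := by
  have hcomb : ∀ u : Pt d, Matrix.vecMul u (Matrix.of w) = ∑ j, u j • w j := fun u => by
    funext k; simp [Matrix.vecMul, dotProduct]
  have hdet : (Matrix.of w).det ≠ 0 := by
    intro h
    obtain ⟨u, hu, hu0⟩ := Matrix.exists_vecMul_eq_zero_iff.2 h
    rw [hcomb] at hu0
    exact hu (funext (Fintype.linearIndependent_iff.1 hw u hu0))
  refine ⟨(Matrix.of w).det.natAbs, Int.natAbs_pos.2 hdet, fun v a => ?_⟩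
  have hdv : (Matrix.of w).det • v ∈ setPeriods A := by
    have h := hcomb (Matrix.vecMul v (Matrix.adjugate (Matrix.of w)))
    rw [Matrix.vecMul_vecMul, Matrix.adjugate_mul, Matrix.vecMul_smul, Matrix.vecMul_one] at h
    rw [h]
    exact AddSubgroup.sum_mem _ fun j _ =>
      AddSubgroup.zsmul_mem (setPeriods A) (show w j ∈ setPeriods A from hmem j) _
  have hN : ((Matrix.of w).det.natAbs : ℤ) • v ∈ setPeriods A := by
    rcases Int.natAbs_eq (Matrix.of w).det with h | h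
    · rwa [← h]
    · rw [h, neg_smul] at hdv; exact neg_mem_iff.1 hdv
  rw [natCast_zsmul] at hN
  exact hN a

/-- A tile of the lattice without periodic tiling gives one of Euclidean space. -/
theorem euclid_lift (hd : 2 ≤ d) {F : Finset (Pt d)} (htile : ∃ A, IsTiling A F)
    (hper : ∀ (A : Set (Pt d)) (N : ℕ), IsTiling A F → 0 < N →
      ¬ ∀ v a, a + N • v ∈ A ↔ a ∈ A) :
    ∃ Ω : Set (Fin d → ℝ), MeasurableSet Ω ∧ Bornology.IsBounded Ω ∧ 0 < volume Ω ∧
      (∃ A : Set (Fin d → ℝ), (∀ᵐ x, ∃ a ∈ A, x - a ∈ Ω) ∧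
        ∀ a ∈ A, ∀ b ∈ A, a ≠ b → volume {x : Fin d → ℝ | x - a ∈ Ω ∧ x - b ∈ Ω} = 0) ∧
      ∀ A : Set (Fin d → ℝ), (∀ᵐ x, ∃ a ∈ A, x - a ∈ Ω) →
        (∀ a ∈ A, ∀ b ∈ A, a ≠ b → volume {x : Fin d → ℝ | x - a ∈ Ω ∧ x - b ∈ Ω} = 0) →
        ¬ ∃ v : Fin d → (Fin d → ℝ), LinearIndependent ℝ v ∧ ∀ j x, x + v j ∈ A ↔ x ∈ A := by
  obtain ⟨A₀, hA₀⟩ := htile
  have hF := nonempty_of_tiling hA₀
  refine ⟨thicken F, measurableSet_thicken F, thicken_bounded F, thicken_pos hF,
    ⟨_, (thicken_tiles hA₀).1, (thicken_tiles hA₀).2⟩, ?_⟩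
  rintro A hcov hdis ⟨v, hv, hvA⟩
  obtain ⟨a₀, A', hA', rfl⟩ := tiling_of_thicken hd hF ⟨hcov, hdis⟩
  have hinj : Function.Injective fun m : Pt d => a₀ + toReal m :=
    fun _ _ h => toReal_injective (add_left_cancel h)
  have hmem : ∀ m : Pt d, a₀ + toReal m ∈ (fun m => a₀ + toReal m) '' A' ↔ m ∈ A' := fun _ =>
    hinj.mem_set_image
  obtain ⟨⟨m₀, f₀⟩, ⟨hm₀, -, -⟩, -⟩ := hA' 0
  have hw : ∀ j, ∃ w : Pt d, v j = toReal w := fun j => by
    obtain ⟨m, -, hm⟩ := (hvA j (a₀ + toReal m₀)).2 ⟨m₀, hm₀, rfl⟩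
    refine ⟨m - m₀, ?_⟩
    simp only at hm
    rw [toReal_sub, eq_sub_iff_add_eq]
    exact (add_left_cancel (hm.trans
      (by abel : a₀ + toReal m₀ + v j = a₀ + (v j + toReal m₀)))).symm
  choose w hw using hw
  obtain rfl : v = fun j => toReal (w j) := funext hw
  have hli : LinearIndependent ℤ w := by
    refine Fintype.linearIndependent_iff.2 fun g hg j => ?_
    have := Fintype.linearIndependent_iff.1 hv (fun j => (g j : ℝ)) (by
      funext k
      have hk := congrFun hg k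
      simp only [Finset.sum_apply, Pi.smul_apply, Pi.zero_apply, smul_eq_mul, toReal] at hk ⊢
      exact_mod_cast hk) j
    exact_mod_cast this
  obtain ⟨N, hN, hNp⟩ := exists_nsmul_period hli (A := A') fun j m => by
    rw [← hmem, ← hmem, toReal_add, ← add_assoc]
    exact hvA j _
  exact hper A' N hA' hN hNp

/-- A tile without periodic tiling gives one in the next dimension. -/
theorem exists_tile_succ {m : ℕ} {F : Finset (Pt m)} (htile : ∃ A, IsTiling A F)
    (hper : ∀ (A : Set (Pt m)) (N : ℕ), IsTiling A F → 0 < N →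
      ¬ ∀ v a, a + N • v ∈ A ↔ a ∈ A) :
    ∃ G : Finset (Pt (m + 1)), (∃ A, IsTiling A G) ∧
      ∀ (A : Set (Pt (m + 1))) (N : ℕ), IsTiling A G → 0 < N →
        ¬ ∀ v a, a + N • v ∈ A ↔ a ∈ A := by
  classical
  have hinit : ∀ (g : Pt (m + 1)) (f : Pt m), (Fin.init (g - Fin.snoc f 0) : Pt m) = Fin.init g - f :=
    fun g f => funext fun k => by simp [Fin.init]
  have hsn : ∀ g f : Pt m, (Fin.snoc g 0 : Pt (m + 1)) - Fin.snoc f 0 = Fin.snoc (g - f) 0 :=
    fun g f => funext (Fin.lastCases (by simp) (fun k => by simp))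
  refine ⟨F.image fun f => Fin.snoc f 0, ?_, fun A N hA hN hp => ?_⟩
  · obtain ⟨A, hA⟩ := htile
    refine ⟨{g : Pt (m + 1) | (Fin.init g : Pt m) ∈ A}, fun g => ?_⟩
    obtain ⟨⟨a, f⟩, ⟨ha, hf, he⟩, huniq⟩ := hA (Fin.init g : Pt m)
    refine ⟨(g - Fin.snoc f 0, Fin.snoc f 0),
      ⟨?_, Finset.mem_image_of_mem _ hf, sub_add_cancel _ _⟩, ?_⟩
    · show (Fin.init (g - Fin.snoc f 0) : Pt m) ∈ A
      rwa [hinit, ← eq_sub_of_add_eq he]
    · rintro ⟨b, q⟩ ⟨hb, hq, hbq⟩
      obtain ⟨f', hf', rfl⟩ := Finset.mem_image.1 hq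
      obtain rfl : b = g - Fin.snoc f' 0 := eq_sub_of_add_eq hbq
      change (Fin.init (g - Fin.snoc f' 0) : Pt m) ∈ A at hb
      rw [hinit] at hb
      have := huniq ((Fin.init g : Pt m) - f', f') ⟨hb, hf', sub_add_cancel _ _⟩
      rw [show f' = f from congrArg Prod.snd this]
  · refine hper {a | (Fin.snoc a 0 : Pt (m + 1)) ∈ A} N (fun g => ?_) hN fun v a => ?_
    · obtain ⟨⟨a, q⟩, ⟨ha, hq, he⟩, huniq⟩ := hA (Fin.snoc g 0)
      obtain ⟨f, hf, rfl⟩ := Finset.mem_image.1 hq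
      refine ⟨(g - f, f), ⟨?_, hf, sub_add_cancel _ _⟩, ?_⟩
      · show Fin.snoc (g - f) 0 ∈ A
        rwa [← hsn, ← eq_sub_of_add_eq he]
      · rintro ⟨b, f'⟩ ⟨hb, hf', hbf⟩
        obtain rfl : b = g - f' := eq_sub_of_add_eq hbf
        change Fin.snoc (g - f') 0 ∈ A at hb
        rw [← hsn] at hb
        have := congrArg Prod.snd
          (huniq (_, Fin.snoc f' 0) ⟨hb, Finset.mem_image_of_mem _ hf', sub_add_cancel _ _⟩)
        rw [show f' = f from (Fin.snoc_injective2 (α := fun _ : Fin (m + 1) => ℤ) this).1]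
    · have e : (Fin.snoc (a + N • v) 0 : Pt (m + 1)) = Fin.snoc a 0 + N • Fin.snoc v 0 :=
        funext (Fin.lastCases (by simp) (fun k => by simp))
      show Fin.snoc (a + N • v) 0 ∈ A ↔ Fin.snoc a 0 ∈ A
      rw [e]
      exact hp _ _

/-- A tile without periodic tiling gives one in every higher dimension. -/
theorem exists_tile_of_le {m : ℕ} {F : Finset (Pt m)} (htile : ∃ A, IsTiling A F)
    (hper : ∀ (A : Set (Pt m)) (N : ℕ), IsTiling A F → 0 < N →
      ¬ ∀ v a, a + N • v ∈ A ↔ a ∈ A) (n : ℕ) (hn : m ≤ n) :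
    ∃ G : Finset (Pt n), (∃ A, IsTiling A G) ∧
      ∀ (A : Set (Pt n)) (N : ℕ), IsTiling A G → 0 < N → ¬ ∀ v a, a + N • v ∈ A ↔ a ∈ A := by
  induction n, hn using Nat.le_induction with
  | base => exact ⟨F, htile, hper⟩
  | succ n _ ih =>
    obtain ⟨G, hG, hG'⟩ := ih
    exact exists_tile_succ hG hG'

end Vale.Agent.P043.Euclid
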